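import Vale.Agent.P267.H359.St
import Vale.Agent.P267.H759.XT
import Vale.Agent.P267.H457.Chain
import Vale.Agent.P267.H175.Thin
import Vale.Agent.P267.H701.FlatPt

/-!
# P267 / H701 (helper701), package NOROOT

If some `s l ≥ 2` (the surface is not an Enoki surface) there is no root function on the infinite
cyclic cover: a holomorphic `u` with `u (γ x) = ν u x`, `1 < ‖ν‖`, vanishes.  So `RootGap d'` holds
for every `d' > 0`.

Proof: `u` decays at the inner end, so the class argument (A3) of `XtCone` shows that `u = ⟨α, t⟩`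
for `f ≤ R`, for all translates; the multiplicity of a curve in `D_l` is unbounded, so `u` vanishes
to infinite order.
-/

set_option linter.unusedSectionVars false

open scoped Manifold ContDiff ComplexConjugate Matrix Topology
open Set Filter

noncomputable section

namespace Vale.Agent.P267.H701

open Vale.Agent.P267.FL Vale.Agent.P267.XT Vale.Agent.P267.H692

section

variable {M : Type} [TopologicalSpace M] [ChartedSpace C2 M] [IsManifold 𝓘(ℂ, C2) ω M]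
  {D : XTData M}

theorem analyticAt_of_mdiff {u : M → ℂ} (hu : MDifferentiable 𝓘(ℂ, C2) 𝓘(ℂ, ℂ) u) (x : M) :
    AnalyticAt ℂ (fun z => u ((chartAt C2 x).symm z)) (chartAt C2 x x) := by
  have : IsManifold 𝓘(ℂ, C2) 1 M := IsManifold.of_le (n := ω) le_top
  exact Vale.Agent.P268.analyticAt_of_differentiableOn (chartAt C2 x).open_target
    (Vale.Agent.P267.H759.diffOn_chart hu x) (mem_chart_target C2 x)

theorem s0_of_mdiff {u : M → ℂ} (hu : MDifferentiable 𝓘(ℂ, C2) 𝓘(ℂ, ℂ) u) (x : M) : S0 u x := by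
  unfold S0
  rw [Vale.Agent.P267.H661.loc0_zero']
  exact (analyticAt_of_mdiff hu x).contDiffAt.restrict_scalars ℝ

theorem dbar0_of_mdiff {u : M → ℂ} (hu : MDifferentiable 𝓘(ℂ, C2) 𝓘(ℂ, ℂ) u) (x : M)
    (i : Fin 2) : dbar0 0 u x i = 0 := by
  rw [dbar0, Vale.Agent.P267.H661.loc0_zero']
  have h1 := (analyticAt_of_mdiff hu x).differentiableAt
  exact (differentiableAt_complex_iff (h1.restrictScalars ℝ)).1 h1 i

theorem root_sh {u : M → ℂ} {ν : ℂ} (hν : ν ≠ 0) (h : ∀ x, u (D.γ x) = ν * u x) (k : ℤ) :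
    ∀ x, u (D.sh k x) = ν ^ k * u x := by
  revert k
  apply XTData.sh_induction
  · intro x
    simp
  · intro k hk x
    rw [← D.γ_sh, h, hk, zpow_add_one₀ hν]
    ring
  · intro k hk x
    have h1 := h (D.sh (k - 1) x)
    rw [D.γ_sh, sub_add_cancel, hk] at h1
    rw [zpow_sub_one₀ hν]
    field_simp
    linear_combination -h1

theorem root_growth {u : M → ℂ} (hu : Continuous u) {ν : ℂ} (hν : 1 < ‖ν‖)
    (h : ∀ x, u (D.γ x) = ν * u x) :
    ∃ C, 0 ≤ C ∧ ∀ x, ‖u x‖ ≤ C * Real.exp (Real.log ‖ν‖ * D.f x) := by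
  have hν0 : ν ≠ 0 := fun h0 => by
    rw [h0, norm_zero] at hν
    linarith
  obtain ⟨B, hB⟩ := (D.isCompact_slab 0).bddAbove_image hu.norm.continuousOn
  refine ⟨max B 0, le_max_right _ _, fun x => ?_⟩
  set k : ℤ := ⌊D.f x⌋ with hk
  have h1 : D.sh (-k) x ∈ D.slab 0 := by
    have h2 := (D.sh_mem_slab (j := k) (k := -k) (x := x)).2 (D.mem_slab_floor x)
    rwa [add_neg_cancel] at h2
  have h3 := root_sh hν0 h k (D.sh (-k) x)
  rw [D.sh_sh_neg] at h3
  have h4 : ‖u (D.sh (-k) x)‖ ≤ max B 0 := (hB ⟨_, h1, rfl⟩).trans (le_max_left _ _)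
  rw [h3, norm_mul, norm_zpow, mul_comm]
  have h5 : ‖ν‖ ^ k ≤ Real.exp (Real.log ‖ν‖ * D.f x) := by
    rw [← Real.exp_log (zpow_pos (by linarith : 0 < ‖ν‖) k), Real.log_zpow]
    refine Real.exp_le_exp.2 ?_
    rw [mul_comm]
    exact mul_le_mul_of_nonneg_left (Int.floor_le _) (Real.log_nonneg hν.le)
  exact mul_le_mul h4 h5 (zpow_nonneg (norm_nonneg _) _) (le_max_right _ _)

variable {ι : Type} [Fintype ι] [DecidableEq ι] {L : LB M ι} {a : M → Fin 2 → ℂ} {i₀ : ι} {R : ℝ}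
  {α : M → EuclideanSpace ℂ ι} {d d' : ℝ}

/-- the class argument -/
theorem root_div (H : XtCone D L a i₀ R α d d') {u : M → ℂ}
    (hu : MDifferentiable 𝓘(ℂ, C2) 𝓘(ℂ, ℂ) u) {c C : ℝ} (hc : 0 < c) (hC : 0 ≤ C)
    (hg : ∀ x, ‖u x‖ ≤ C * Real.exp (c * D.f x)) :
    ∃ t : M → EuclideanSpace ℂ ι, Reg0 ∞ 0 t ∧ ∀ x, D.f x ≤ R → u x = pair (α x) (t x) := by
  rcases isEmpty_or_nonempty M with hM | ⟨⟨x₀⟩⟩
  · exact ⟨fun _ => 0, reg0.2 fun x => (hM.false x).elim, fun x => (hM.false x).elim⟩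
  have hR : R < R + 1 := by linarith
  have hψ : Reg0 ∞ 0 (cut D R (R + 1)) := reg0.2 fun x => S0.cut D R (R + 1) x
  have hd : ∀ x, dbar0 0 (cut D R (R + 1)) x ≠ 0 → R ≤ D.f x ∧ D.f x ≤ R + 1 := by
    intro x hx
    constructor
    · by_contra h1
      exact hx (funext fun i => dcut_eq_zero_of_lt D hR (not_le.1 h1) i)
    · by_contra h1
      exact hx (funext fun i => dcut_eq_zero_of_gt D hR (not_le.1 h1) i)
  have hts : tsupport (dbar0 0 (cut D R (R + 1))) ⊆ D.f ⁻¹' Icc R (R + 1) :=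
    closure_minimal hd (isClosed_Icc.preimage (continuous_f D))
  have hts2 : tsupport (cut D R (R + 1)) ⊆ D.f ⁻¹' Iic (R + 1) := by
    refine closure_minimal ?_ (isClosed_Iic.preimage (continuous_f D))
    intro x hx
    by_contra h1
    exact hx (cut_eq_zero D hR (not_le.1 h1).le)
  have hH := H.near_cut (U := D.f ⁻¹' Iio (R + 2)) (isOpen_Iio.preimage (continuous_f D)) hψ
    (fun x hx => by
      have h1 : D.f x ≤ R + 1 := hts2 hx
      change D.f x < R + 2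
      linarith)
    ⟨1, norm_cut_le D R (R + 1)⟩ (hasCompactSupport_of_slab D hd)
    (fun x hx => H.α_out x (hts hx).1) (s := u) (η := fun _ _ => 0)
    (fun x _ => s0_of_mdiff hu x) (fun x _ => S1.zero x) (fun x _ i => by simp [act_eq_clm])
    ⟨C * Real.exp ((c + d) * (R + 2)), fun x hx => ?_⟩
    ⟨0, fun x _ => ?_⟩ (fun x _ i => by
      rw [dbar0_of_mdiff hu]
      simp [pair])
  · obtain ⟨b, t, -, ht, ⟨ε, hε, K, hK⟩, htu⟩ := hH
    have hb : b = 0 := by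
      have h1 : Tendsto (fun k : ℕ => ‖b‖) atTop (𝓝 ‖b‖) := tendsto_const_nhds
      have hexp : ∀ s : ℝ, 0 < s → Tendsto (fun k : ℕ => Real.exp (s * D.f (D.sh (-k) x₀))) atTop
          (𝓝 0) := by
        intro s hs
        refine Real.tendsto_exp_atBot.comp ?_
        have h2 : Tendsto (fun k : ℕ => D.f x₀ - (k : ℝ)) atTop atBot :=
          tendsto_const_nhds.add_atBot (tendsto_neg_atTop_atBot.comp tendsto_natCast_atTop_atTop)
        have h3 := h2.const_mul_atBot hs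
        refine h3.congr fun k => ?_
        rw [D.f_sh]
        push_cast
        ring
      have h2 : Tendsto (fun k : ℕ => K * Real.exp (ε * D.f (D.sh (-k) x₀)) +
          C * Real.exp (c * D.f (D.sh (-k) x₀))) atTop (𝓝 (K * 0 + C * 0)) :=
        ((hexp ε hε).const_mul K).add ((hexp c hc).const_mul C)
      have h3 : ‖b‖ ≤ K * 0 + C * 0 := by
        refine le_of_tendsto_of_tendsto h1 h2 ?_
        filter_upwards [eventually_ge_atTop ⌈D.f x₀⌉₊] with k hk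
        have hk' : D.f (D.sh (-k) x₀) ≤ 0 := by
          rw [D.f_sh]
          push_cast
          have := (Nat.le_ceil (D.f x₀)).trans (Nat.cast_le.2 hk)
          linarith
        have h4 := hK _ hk'
        rw [cut_eq_one D hR (hk'.trans H.R_pos.le), one_mul] at h4
        have h5 := hg (D.sh (-k) x₀)
        calc ‖b‖ = ‖u (D.sh (-k) x₀) - (u (D.sh (-k) x₀) - b)‖ := by
              congr 1
              ring
          _ ≤ ‖u (D.sh (-k) x₀)‖ + ‖u (D.sh (-k) x₀) - b‖ := norm_sub_le _ _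
          _ ≤ _ := by linarith
      rw [mul_zero, mul_zero, add_zero] at h3
      exact norm_le_zero_iff.1 h3
    refine ⟨t, ht.reg, fun x hx => ?_⟩
    have := htu x
    rw [cut_eq_one D hR hx, one_mul, hb, zero_mul, zero_add] at this
    exact this
  · have hx' : D.f x ≤ R + 2 := le_of_lt hx
    refine (hg x).trans ?_
    rw [mul_assoc, ← Real.exp_add]
    refine mul_le_mul_of_nonneg_left (Real.exp_le_exp.2 ?_) hC
    have h1 : (c + d) * D.f x ≤ (c + d) * (R + 2) :=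
      mul_le_mul_of_nonneg_left hx' (by linarith [H.d_pos])
    linarith
  · have h1 : n1 D.h 0 (fun (_ : M) (_ : Fin 2) => (0 : EuclideanSpace ℂ ι)) x = 0 := by
      rw [n1_eq D.herm]
      have : fr D.herm x (fun _ => (0 : EuclideanSpace ℂ ι)) = 0 := by ext k; simp [fr]
      rw [this, norm_zero]
    rw [h1, zero_mul]

end

/-- `RootGap` from the absence of roots (helper759's proof) -/
theorem rootGap_of_isGap {M : Type} [TopologicalSpace M] [ChartedSpace C2 M]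
    [IsManifold 𝓘(ℂ, C2) ω M] [PreconnectedSpace M] (D : XTData M) {d : ℝ} (hd : 0 < d)
    (hgap : (Vale.Agent.P267.H759.per D).IsGap d) : D.RootGap d := by
  have : IsManifold 𝓘(ℂ, C2) 1 M := IsManifold.of_le (n := ω) le_top
  have hSH := Vale.Agent.P267.H759.sh_f D
  refine ⟨hd, ?_, ?_, ?_⟩
  · rintro v hv hdv ⟨A, hA⟩
    have h1 := hgap.liouville_const hd hSH (Vale.Agent.P267.H759.mdiff_of_dbar hv hdv) (N := d)
      (C := A) hd.le (by
      intro x
      refine (hA x).trans (le_of_eq ?_)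
      congr 2
      change d * |D.f x| = max (-d * D.f x) (d * D.f x)
      rw [abs_eq_max_neg, mul_max_of_nonneg _ _ hd.le, max_comm]
      congr 1
      ring)
    rcases isEmpty_or_nonempty M with hM | ⟨⟨x0⟩⟩
    · exact ⟨0, fun x => (hM.false x).elim⟩
    · exact ⟨v x0, fun x => h1 x x0⟩
  · rintro v ε hε hεd hv hdv ⟨A, hA⟩ x
    exact congrFun (hgap.liouville_pos (Vale.Agent.P267.H759.mdiff_of_dbar hv hdv) hε hεd hA) x
  · rintro v ε N hε hεN hv hdv ⟨A, hA⟩ x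
    have := (Vale.Agent.P267.H759.per D).liouville_neg hSH
      (Vale.Agent.P267.H759.mdiff_of_dbar hv hdv) hε hεN (C := A) (by
      intro x
      refine (hA x).trans (le_of_eq ?_)
      congr 2
      change max (-(ε * D.f x)) (-(N * D.f x)) = max (-N * D.f x) (-ε * D.f x)
      rw [max_comm, neg_mul, neg_mul])
    exact congrFun this x

section chain

open Vale.Agent.P267.LineX Vale.Agent.P267.H158

variable {X : Type} [TopologicalSpace X] [ChartedSpace C2 X] [IsManifold 𝓘(ℂ, C2) ω X] {n : ℕ}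
  {O : BlockOut X n} (Ch : Chain O)

/-- the norm function of `α_l` -/
abbrev nrm (l : ℤ) (x : Cov O.B.hh) : ℝ := O.N (Ch.ord.symm l) x

theorem nrm_nonneg (l : ℤ) (x : Cov O.B.hh) : 0 ≤ nrm Ch l x := sq_nonneg _

theorem nrm_cont (l : ℤ) : Continuous (nrm Ch l) := by
  unfold nrm BlockOut.N BlockOut.bα
  exact ((O.cone _).α_reg.continuous.comp (O.B.D.continuous_sh _)).norm.pow 2

theorem nc_bdd (l : ℤ) (x₀ : Cov O.B.hh) : ∃ K : ℝ, 0 ≤ K ∧ ∀ᶠ x in 𝓝 x₀, Ch.Nc l x ≤ K := by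
  obtain ⟨U, g, φ, hxU, hr⟩ := Ch.Nc_norm l x₀
  have h1 : ContinuousAt (fun x => ‖g x‖ ^ 2 * Real.exp (-φ x)) x₀ := by
    have hg : ContinuousAt g x₀ :=
      (hr.hol.continuousOn).continuousAt (hr.isOpen.mem_nhds hxU)
    have hφ : ContinuousAt φ x₀ :=
      (hr.smooth.continuousOn).continuousAt (hr.isOpen.mem_nhds hxU)
    exact (hg.norm.pow 2).mul hφ.neg.rexp
  refine ⟨‖g x₀‖ ^ 2 * Real.exp (-φ x₀) + 1, by positivity, ?_⟩
  filter_upwards [h1.eventually (gt_mem_nhds (lt_add_one _)), hr.isOpen.mem_nhds hxU]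
    with x hx hxU'
  rw [hr.eq x hxU']
  exact hx.le

/-- `D_l` contains `m` times `D_0` near `x₀` -/
def Dv (x₀ : Cov O.B.hh) (l : ℤ) (m : ℕ) : Prop :=
  ∃ K : ℝ, 0 ≤ K ∧ ∀ᶠ x in 𝓝 x₀, nrm Ch l x ≤ K * nrm Ch 0 x ^ m

theorem dv_zero (x₀ : Cov O.B.hh) (l : ℤ) : Dv Ch x₀ l 0 := by
  have h1 := nrm_nonneg Ch l x₀
  refine ⟨nrm Ch l x₀ + 1, by linarith, ?_⟩
  filter_upwards [(nrm_cont Ch l).continuousAt.eventually (gt_mem_nhds (lt_add_one _))] with x hx
  rw [pow_zero, mul_one]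
  exact le_of_lt hx

theorem dv_self (x₀ : Cov O.B.hh) : Dv Ch x₀ 0 1 :=
  ⟨1, zero_le_one, Eventually.of_forall fun x => by rw [pow_one, one_mul]⟩

theorem dv_step (x₀ : Cov O.B.hh) (l : ℤ) (mf : ℤ → ℕ)
    (h : ∀ j ∈ Finset.Ico (l - Ch.s l) l, Dv Ch x₀ j (mf j)) :
    Dv Ch x₀ l (∑ j ∈ Finset.Ico (l - Ch.s l) l, mf j) := by
  obtain ⟨K₀, hK₀, h₀⟩ := nc_bdd Ch l x₀
  choose! K hK hKm using h
  refine ⟨K₀ * ∏ j ∈ Finset.Ico (l - Ch.s l) l, K j,
    mul_nonneg hK₀ (Finset.prod_nonneg fun j hj => hK j hj), ?_⟩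
  have h1 : ∀ᶠ x in 𝓝 x₀, ∀ j ∈ Finset.Ico (l - Ch.s l) l,
      nrm Ch j x ≤ K j * nrm Ch 0 x ^ mf j := by
    rw [Filter.eventually_all_finset]
    exact hKm
  filter_upwards [h₀, h1] with x hx0 hx1
  have h2 : nrm Ch l x = Ch.Nc l x * ∏ j ∈ Finset.Ico (l - Ch.s l) l, nrm Ch j x := Ch.div l x
  have h3 : ∏ j ∈ Finset.Ico (l - Ch.s l) l, nrm Ch j x ≤
      ∏ j ∈ Finset.Ico (l - Ch.s l) l, (K j * nrm Ch 0 x ^ mf j) :=
    Finset.prod_le_prod (fun j _ => nrm_nonneg Ch j x) hx1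
  rw [Finset.prod_mul_distrib, Finset.prod_pow_eq_pow_sum] at h3
  rw [h2, mul_assoc]
  exact mul_le_mul hx0 h3 (Finset.prod_nonneg fun j _ => nrm_nonneg Ch j x) hK₀

theorem dv_succ (x₀ : Cov O.B.hh) (l : ℤ) (m : ℕ) (h : Dv Ch x₀ l m) : Dv Ch x₀ (l + 1) m := by
  have h1 := dv_step Ch x₀ (l + 1) (fun j => if j = l then m else 0) (fun j _ => by
    by_cases hj : j = l
    · rw [if_pos hj, hj]
      exact h
    · rw [if_neg hj]
      exact dv_zero Ch x₀ j)
  have hs := Ch.s_pos (l + 1)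
  have hl : l ∈ Finset.Ico (l + 1 - (Ch.s (l + 1) : ℤ)) (l + 1) := by
    rw [Finset.mem_Ico]
    omega
  rw [Finset.sum_ite_eq', if_pos hl] at h1
  exact h1

theorem dv_grow (x₀ : Cov O.B.hh) (l : ℤ) (m : ℕ) (hs : 2 ≤ Ch.s (l + 1)) (h : Dv Ch x₀ l m)
    (h' : Dv Ch x₀ (l - 1) 1) : Dv Ch x₀ (l + 1) (m + 1) := by
  have h1 := dv_step Ch x₀ (l + 1)
    (fun j => (if j = l then m else 0) + (if j = l - 1 then 1 else 0)) (fun j _ => by
    by_cases hj : j = l
    · rw [if_pos hj, if_neg (by omega), hj]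
      exact h
    · rw [if_neg hj]
      by_cases hj' : j = l - 1
      · rw [if_pos hj', hj']
        exact h'
      · rw [if_neg hj']
        exact dv_zero Ch x₀ j)
  have hl : l ∈ Finset.Ico (l + 1 - (Ch.s (l + 1) : ℤ)) (l + 1) := by
    rw [Finset.mem_Ico]
    omega
  have hl' : l - 1 ∈ Finset.Ico (l + 1 - (Ch.s (l + 1) : ℤ)) (l + 1) := by
    rw [Finset.mem_Ico]
    omega
  rw [Finset.sum_add_distrib, Finset.sum_ite_eq', if_pos hl, Finset.sum_ite_eq', if_pos hl'] at h1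
  exact h1

theorem dv_mono (x₀ : Cov O.B.hh) {l l' : ℤ} (hl : l ≤ l') {m : ℕ} (h : Dv Ch x₀ l m) :
    Dv Ch x₀ l' m :=
  Int.leInduction (m := l) (motive := fun k _ => Dv Ch x₀ k m) h
    (fun k _ hk => dv_succ Ch x₀ k m hk) l' hl

theorem n_pos (Ch : Chain O) : 0 < n := lt_of_le_of_lt (Nat.zero_le _) (Ch.ord.symm 0).1.isLt

theorem s_per_mul (l : ℤ) (k : ℕ) : Ch.s (l + n * k) = Ch.s l := by
  induction k with
  | zero => simp
  | succ k ih =>
    rw [← ih, ← Ch.s_per (l + n * k)]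
    congr 1
    push_cast
    ring

theorem ord_mul (i : Fin n) (k : ℕ) : Ch.ord (i, (k : ℤ)) = Ch.ord (i, 0) + n * k := by
  induction k with
  | zero => simp
  | succ k ih =>
    have := Ch.ord_shift i k
    push_cast at this ⊢
    rw [this, ih]
    ring

theorem dv_all (h2 : ∃ l, 2 ≤ Ch.s l) (x₀ : Cov O.B.hh) (m : ℕ) :
    ∃ L : ℤ, 0 ≤ L ∧ ∀ l, L ≤ l → Dv Ch x₀ l m := by
  obtain ⟨l₀, hl₀⟩ := h2
  have hn : (0 : ℤ) < n := by exact_mod_cast n_pos Ch
  induction m with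
  | zero => exact ⟨0, le_refl _, fun l _ => dv_zero Ch x₀ l⟩
  | succ m ih =>
    obtain ⟨L, hL, h⟩ := ih
    set k : ℕ := (L + 2 - l₀).toNat with hk
    set p : ℤ := l₀ + n * k with hp
    have hk1 : L + 2 - l₀ ≤ k := Int.self_le_toNat _
    have hk0 : (0 : ℤ) ≤ k := Int.natCast_nonneg _
    have hpL : L + 2 ≤ p := by
      have h3 : (k : ℤ) ≤ n * k := by nlinarith
      linarith
    have hs : 2 ≤ Ch.s (p - 1 + 1) := by
      rw [sub_add_cancel, hp, s_per_mul]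
      exact hl₀
    have h4 := dv_grow Ch x₀ (p - 1) m hs (h _ (by linarith))
      (dv_mono Ch x₀ (by linarith) (dv_self Ch x₀))
    rw [sub_add_cancel] at h4
    exact ⟨p, by linarith, fun l hl => dv_mono Ch x₀ hl h4⟩

variable [T2Space X] [CompactSpace X] [ConnectedSpace X]

/-- **there are no root functions** -/
theorem no_root (h2 : ∃ l, 2 ≤ Ch.s l) {u : Cov O.B.hh → ℂ}
    (hu : MDifferentiable 𝓘(ℂ, C2) 𝓘(ℂ, ℂ) u) {ν : ℂ} (hν : 1 < ‖ν‖)
    (huγ : ∀ x, u (O.B.D.γ x) = ν * u x) : ∀ x, u x = 0 := by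
  have : IsManifold 𝓘(ℂ, C2) 1 (Cov O.B.hh) := IsManifold.of_le (n := ω) le_top
  have hlc : LocallyConnectedSpace X := ChartedSpace.locallyConnectedSpace C2 X
  have hcs : ConnectedSpace (Cov O.B.hh) := Cov.connectedSpace O.B.prim
  have hν0 : ν ≠ 0 := fun h0 => by
    rw [h0, norm_zero] at hν
    linarith
  obtain ⟨C, hC, hg⟩ := root_growth (D := O.B.D) hu.continuous hν huγ
  have hc : 0 < Real.log ‖ν‖ := Real.log_pos hν
  -- a point of `C_0`
  set x₀ : Cov O.B.hh := (Ch.C 0).f₀ 0 with hx₀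
  have hx₀C : x₀ ∈ (Ch.C 0).image := (Ch.C 0).mem_image_f₀ 0
  have hN0 : nrm Ch 0 x₀ = 0 := (Ch.zero 0 x₀).2 ⟨0, le_refl _, hx₀C⟩
  set e := chartAt C2 x₀ with he
  have hes : Tendsto e.symm (𝓝 (e x₀)) (𝓝 x₀) := by
    have := e.continuousAt_symm (mem_chart_target C2 x₀)
    rwa [ContinuousAt, e.left_inv (mem_chart_source C2 x₀)] at this
  -- `nrm 0` vanishes to second order
  obtain ⟨A, hA0, hA⟩ : ∃ A : ℝ, 0 ≤ A ∧ ∀ᶠ z in 𝓝 (e x₀),
      nrm Ch 0 (e.symm z) ≤ A * ‖z - e x₀‖ ^ 2 := by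
    have h1 : Reg0 ∞ 0 (O.bα (Ch.ord.symm 0)) :=
      (O.B.D.chartMap_sh (-(Ch.ord.symm 0).2)).reg0_comp (O.cone (Ch.ord.symm 0).1).α_reg
    have h2 : S0 (O.bα (Ch.ord.symm 0)) x₀ := reg0.1 h1 x₀
    unfold S0 at h2
    rw [Vale.Agent.P267.H661.loc0_zero'] at h2
    have h3 : DifferentiableAt ℝ (fun z => O.bα (Ch.ord.symm 0) (e.symm z)) (e x₀) :=
      h2.differentiableAt (by simp)
    obtain ⟨c, hc⟩ := h3.isBigO_sub.bound
    have h4 : O.bα (Ch.ord.symm 0) x₀ = 0 := by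
      have h5 : ‖O.bα (Ch.ord.symm 0) x₀‖ ^ 2 = 0 := hN0
      exact norm_eq_zero.1 (pow_eq_zero_iff two_ne_zero |>.1 h5)
    refine ⟨c ^ 2, sq_nonneg _, ?_⟩
    filter_upwards [hc] with z hz
    rw [e.left_inv (mem_chart_source C2 x₀), h4, sub_zero] at hz
    change ‖O.bα (Ch.ord.symm 0) (e.symm z)‖ ^ 2 ≤ _
    rw [← mul_pow]
    exact pow_le_pow_left₀ (norm_nonneg _) hz 2
  set i : Fin n := (Ch.ord.symm 0).1 with hi
  obtain ⟨t, ht, hut⟩ := root_div (O.cone i) hu hc hC hg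
  -- flatness
  have hflat : ∀ m : ℕ, ∃ K : ℝ, ∀ᶠ z in 𝓝 (e x₀), ‖u (e.symm z)‖ ≤ K * ‖z - e x₀‖ ^ m := by
    intro m
    obtain ⟨L, hL, hDv⟩ := dv_all Ch h2 x₀ m
    have hn : (1 : ℤ) ≤ n := by exact_mod_cast n_pos Ch
    set k : ℕ := max (L - Ch.ord (i, 0)).toNat ⌈O.B.D.f x₀ + 1⌉₊ with hk
    have hk1 : L - Ch.ord (i, 0) ≤ k := (Int.self_le_toNat _).trans (by
      exact_mod_cast le_max_left _ _)
    have hk2 : O.B.D.f x₀ + 1 ≤ k := (Nat.le_ceil _).trans (by exact_mod_cast le_max_right _ _)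
    set l : ℤ := Ch.ord (i, (k : ℤ)) with hl
    have hlL : L ≤ l := by
      rw [hl, ord_mul]
      have h3 : (k : ℤ) ≤ n * k := by nlinarith [Int.natCast_nonneg k]
      linarith
    obtain ⟨K, hK, hKev⟩ := hDv l hlL
    have hNl : ∀ x, nrm Ch l x = ‖O.α i (O.B.D.sh (-(k : ℤ)) x)‖ ^ 2 := by
      intro x
      rw [nrm, hl, Equiv.symm_apply_apply]
      rfl
    -- the bound by `α`
    have hb : ∃ B : ℝ, 0 ≤ B ∧ ∀ᶠ x in 𝓝 x₀, ‖u x‖ ^ 2 ≤ B * nrm Ch l x := by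
      have hcont : Continuous fun x => ‖t (O.B.D.sh (-(k : ℤ)) x)‖ :=
        (ht.continuous.comp (O.B.D.continuous_sh _)).norm
      set b : ℝ := ‖t (O.B.D.sh (-(k : ℤ)) x₀)‖ + 1 with hb
      have hf : ∀ᶠ x in 𝓝 x₀, O.B.D.f x < k := by
        refine (continuous_f O.B.D).continuousAt.eventually (gt_mem_nhds ?_)
        linarith
      refine ⟨(‖ν‖ ^ (k : ℤ) * b) ^ 2, sq_nonneg _, ?_⟩
      filter_upwards [hf, hcont.continuousAt.eventually (gt_mem_nhds (lt_add_one _))]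
        with x hx1 hx2
      have h4 := root_sh (D := O.B.D) hν0 huγ (k : ℤ) (O.B.D.sh (-(k : ℤ)) x)
      rw [O.B.D.sh_sh_neg] at h4
      have h5 := hut (O.B.D.sh (-(k : ℤ)) x) (by
        rw [O.B.D.f_sh]
        have := (O.cone i).R_pos
        push_cast
        linarith)
      rw [h4, h5, norm_mul, norm_zpow, hNl, ← mul_pow]
      refine pow_le_pow_left₀ (by positivity) ?_ 2
      rw [mul_assoc]
      refine mul_le_mul_of_nonneg_left ?_ (zpow_nonneg (norm_nonneg _) _)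
      refine (norm_pair_le _ _).trans ?_
      rw [mul_comm]
      exact mul_le_mul_of_nonneg_right hx2.le (norm_nonneg _)
    obtain ⟨B, hB, hBev⟩ := hb
    refine ⟨Real.sqrt (B * (K * A ^ m)), ?_⟩
    filter_upwards [hes.eventually hBev, hes.eventually hKev, hA] with z h6 h7 h8
    have h9 : ‖u (e.symm z)‖ ^ 2 ≤ B * (K * A ^ m) * (‖z - e x₀‖ ^ m) ^ 2 := by
      calc ‖u (e.symm z)‖ ^ 2 ≤ B * nrm Ch l (e.symm z) := h6
        _ ≤ B * (K * nrm Ch 0 (e.symm z) ^ m) := mul_le_mul_of_nonneg_left h7 hB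
        _ ≤ B * (K * (A * ‖z - e x₀‖ ^ 2) ^ m) := by
          refine mul_le_mul_of_nonneg_left (mul_le_mul_of_nonneg_left ?_ hK) hB
          exact pow_le_pow_left₀ (nrm_nonneg Ch 0 _) h8 m
        _ = _ := by ring
    have h10 := Real.sqrt_le_sqrt h9
    rw [Real.sqrt_sq (norm_nonneg _), Real.sqrt_mul (by positivity),
      Real.sqrt_sq (by positivity)] at h10
    exact h10
  -- `u` vanishes near `x₀`
  obtain ⟨r, hr, hrt⟩ := Metric.isOpen_iff.1 e.open_target (e x₀) (mem_chart_target C2 x₀)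
  have hd : DifferentiableOn ℂ (fun z => u (e.symm z)) (Metric.ball (e x₀) r) :=
    (Vale.Agent.P267.H759.diffOn_chart hu x₀).mono hrt
  have hz := flat_ball hd hflat
  have hev : ∀ᶠ x in 𝓝 x₀, u x = 0 := by
    filter_upwards [(e.continuousAt (mem_chart_source C2 x₀)).eventually
      (Metric.ball_mem_nhds _ hr), e.open_source.mem_nhds (mem_chart_source C2 x₀)] with x hx hxs
    have := hz _ hx
    rwa [e.left_inv hxs] at this
  intro x
  exact (Vale.Agent.P267.H175.eq_zero_of_preconnected isOpen_univ isPreconnected_univ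
    (fun y _ => hu y) (mem_univ x₀) hev x (mem_univ x)).self_of_nhds

theorem isGap (h2 : ∃ l, 2 ≤ Ch.s l) (d : ℝ) : (Vale.Agent.P267.H759.per O.B.D).IsGap d := by
  intro ν u hu hu0 huγ hν
  exact absurd (funext (no_root Ch h2 hu hν huγ)) hu0

/-- **`RootGap d'` for every `d'`** -/
theorem rootGap (h2 : ∃ l, 2 ≤ Ch.s l) {d : ℝ} (hd : 0 < d) : O.B.D.RootGap d := by
  have : IsManifold 𝓘(ℂ, C2) 1 (Cov O.B.hh) := IsManifold.of_le (n := ω) le_top
  have hlc : LocallyConnectedSpace X := ChartedSpace.locallyConnectedSpace C2 X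
  have hcs : ConnectedSpace (Cov O.B.hh) := Cov.connectedSpace O.B.prim
  exact rootGap_of_isGap O.B.D hd (isGap Ch h2 d)

end chain

end Vale.Agent.P267.H701
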