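import Vale.Agent.P267.H692.Cone2
import Vale.Agent.P267.H466.LBNF
import Vale.Agent.P267.H181.UFrm2
import Vale.Agent.P267.H209.Quot
import Vale.Agent.P267.H331.FLGlue

/-!
# P267, endgame route S, (C3) (helper701): the section `q` with `x = ⟨α', q⟩`

`x` is holomorphic on `W` and locally `|x| ≤ C |α'|` there, `α'` a holomorphic section of `(L', a')`
with dense non-zero set.  Then `x = ⟨α', q⟩` with a holomorphic section `q` of the dual bundle on `W`,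
and `|q| ≤ C` wherever `|x| ≤ C |α'|`.
-/

set_option linter.unusedSectionVars false
set_option linter.unusedVariables false

open scoped Manifold ContDiff ComplexConjugate Matrix Topology
open Set Filter

noncomputable section

namespace Vale.Agent.P267.H701

open Vale.Agent.P267.FL Vale.Agent.P267.XT Vale.Agent.P267.H692 Vale.Agent.P267.H466

variable {M : Type} [TopologicalSpace M] [ChartedSpace C2 M] [IsManifold 𝓘(ℂ, C2) ω M]
variable {ι : Type} [Fintype ι] [DecidableEq ι] {L : LB M ι} {a : M → Fin 2 → ℂ}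

/-- an element of the dual fibre is determined by its value -/
theorem dual_eq_smul {s : M → EuclideanSpace ℂ ι} {y : M} (hs : LB.act (L.P y) (s y) = s y)
    (h0 : s y ≠ 0) {w : EuclideanSpace ℂ ι} (hw : LB.act (L.dual.P y) w = w) :
    w = pair (s y) w • H181.dualv s y := by
  have h1 : LB.act (L.dual.P y) (H181.dualv s y) = H181.dualv s y :=
    H181.act_transpose_cf (L.herm y) hs
  have h2 : LB.act (L.dual.P y) (w + -(pair (s y) w • H181.dualv s y)) =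
      w + -(pair (s y) w • H181.dualv s y) := act_add hw (act_neg (act_smul h1 _))
  have h3 : pair (s y) (H181.dualv s y) = 1 := H181.sum_mul_dualv h0
  have h4 : pair (s y) (w + -(pair (s y) w • H181.dualv s y)) = 0 := by
    rw [pair_add_right, pair_neg_right, pair_smul_right, h3, mul_one, add_neg_cancel]
  have h5 := dual_eq_zero L hs h0 h2 h4
  rw [← sub_eq_add_neg, sub_eq_zero] at h5
  exact h5

/-- the rank one identity -/
theorem norm_pair_eq {s : M → EuclideanSpace ℂ ι} {y : M} (hs : LB.act (L.P y) (s y) = s y)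
    (h0 : s y ≠ 0) {w : EuclideanSpace ℂ ι} (hw : LB.act (L.dual.P y) w = w) :
    ‖pair (s y) w‖ = ‖s y‖ * ‖w‖ := by
  have hn : ‖s y‖ ≠ 0 := norm_ne_zero_iff.2 h0
  have h1 := dual_eq_smul hs h0 hw
  have h2 : ‖w‖ = ‖pair (s y) w‖ * ‖s y‖⁻¹ := by
    conv_lhs => rw [h1]
    rw [norm_smul, H181.norm_dualv h0]
  rw [h2]
  field_simp

/-- two sections of the dual bundle, continuous at `p`, with the same values on `s`, agree at `p` -/
theorem dual_eq_of_dense {s q q' : M → EuclideanSpace ℂ ι} {p : M} (hs : L.Sec s)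
    (hd : Dense {x | s x ≠ 0}) (hq : ContinuousAt q p) (hq' : ContinuousAt q' p)
    (h : ∀ᶠ y in 𝓝 p, LB.act (L.dual.P y) (q y) = q y ∧ LB.act (L.dual.P y) (q' y) = q' y ∧
      pair (s y) (q y) = pair (s y) (q' y)) : q p = q' p := by
  by_contra hn
  have h1 : ∀ᶠ y in 𝓝 p, q y ≠ q' y := by
    have : ContinuousAt (fun y => q y - q' y) p := hq.sub hq'
    filter_upwards [this.eventually_ne (sub_ne_zero.2 hn)] with y hy
    exact sub_ne_zero.1 hy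
  have h2 : ∃ᶠ y in 𝓝 p, s y ≠ 0 := mem_closure_iff_frequently.1 (hd p)
  obtain ⟨y, hy, hy1, hy2, hy3, hy4⟩ := (h2.and_eventually (h1.and h)).exists
  refine hy1 ?_
  rw [dual_eq_smul (hs y) hy hy2, dual_eq_smul (hs y) hy hy3, hy4]

variable [T2Space M]

/-- local form -/
theorem exists_q_local (hol : L.IsHol a) {s : M → EuclideanSpace ℂ ι} (hs : Reg0 ∞ 0 s)
    (hss : L.Sec s) (hsh : ∀ x i, L.db0 a 0 s x i = 0) (hd : Dense {x | s x ≠ 0})
    {W : Set M} {x : M → ℂ} (hW : IsOpen W) (hx : ∀ p ∈ W, HolAt 0 x p)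
    {p : M} (hp : p ∈ W) {C : ℝ} (hle : ∀ᶠ y in 𝓝 p, ‖x y‖ ≤ C * ‖s y‖) :
    ∃ V : Set M, IsOpen V ∧ p ∈ V ∧ V ⊆ W ∧ ∃ q : M → EuclideanSpace ℂ ι, ∀ y ∈ V,
      At0 ∞ 0 q y ∧ LB.act (L.dual.P y) (q y) = q y ∧
        (∀ i, L.dual.db0 (neg a) 0 q y i = 0) ∧ x y = pair (s y) (q y) := by
  obtain ⟨W', f, hWo', hpW', hf, hfs, hfW, hc, hch⟩ := exists_local hol hs hss hsh p
  set c := cof f s with hcdef
  -- the scalar estimate
  have hfc : ContinuousAt f p := (hf.at p).continuousAt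
  have hfb : ∀ᶠ y in 𝓝 p, ‖f y‖ < ‖f p‖ + 1 := hfc.norm.eventually (Iio_mem_nhds (by linarith))
  have hb : ∀ᶠ y in 𝓝 p, ‖x y‖ ≤ (|C| * (‖f p‖ + 1)) * ‖c y‖ := by
    filter_upwards [hle, hfb, hWo'.mem_nhds hpW'] with y h1 h2 h3
    have h4 : ‖s y‖ = ‖c y‖ * ‖f y‖ := by rw [hc y h3, norm_smul]
    calc ‖x y‖ ≤ C * ‖s y‖ := h1
      _ ≤ |C| * (‖c y‖ * (‖f p‖ + 1)) := by
          rw [h4]
          exact mul_le_mul (le_abs_self C) (mul_le_mul_of_nonneg_left h2.le (norm_nonneg _))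
            (by positivity) (abs_nonneg _)
      _ = _ := by ring
  have hne : ∃ᶠ y in 𝓝 p, c y ≠ 0 := by
    have h2 : ∃ᶠ y in 𝓝 p, s y ≠ 0 := mem_closure_iff_frequently.1 (hd p)
    refine (h2.and_eventually (hWo'.mem_nhds hpW')).mono ?_
    rintro y ⟨hy, hyW⟩ h0
    apply hy
    rw [hc y hyW, h0, zero_smul]
  obtain ⟨V, hVo, hpV, hVU, k, hk, hke⟩ := H209.quot_local (hW.inter hWo')
    (x := c) (y := x) (fun y hy => (H331.HolAt.mdiff (hch y hy.2)).mdifferentiableWithinAt)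
    (fun y hy => (H331.HolAt.mdiff (hx y hy.1)).mdifferentiableWithinAt) ⟨hp, hpW'⟩ hne hb
  have hkh : ∀ y ∈ V, HolAt 0 k y := by
    intro y hy
    refine H331.holAt_of_mdiff ?_
    filter_upwards [hVo.mem_nhds hy] with z hz
    exact (hk z hz).mdifferentiableAt (hVo.mem_nhds hz)
  refine ⟨V, hVo, hpV, fun y hy => (hVU hy).1, fun y => k y • H181.dualv f y, ?_⟩
  intro y hy
  have hyW := (hVU hy).2
  obtain ⟨hf0, hfd⟩ := hfW y hyW
  have e1 : LB.act (L.dual.P y) (H181.dualv f y) = H181.dualv f y :=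
    H181.act_transpose_cf (L.herm y) (hfs y)
  have e2 : At0 ∞ 0 (H181.dualv f) y := H181.at0_dualv (hf.at y) hf0
  have e3 : L.dual.db0 (neg a) 0 (H181.dualv f) y = 0 :=
    H181.db0_dualv ((hf.at y).of_le (by simp)) (hfs y) hf0 hfd
  refine ⟨(hkh y hy).at0.smul e2, act_smul e1 _, fun i => ?_, ?_⟩
  · rw [LB.db0_smul (hkh y hy).at0 (e2.of_le (by simp)) e1, (hkh y hy).dbar0, e3]
    simp
  · have e4 : pair (f y) (H181.dualv f y) = 1 := H181.sum_mul_dualv hf0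
    rw [pair_smul_right, hc y hyW, pair_smul_left, e4, hke y hy]
    ring

/-- the section `q`, for a holomorphic section `s` with dense non-zero set -/
theorem exists_q_sec (hol : L.IsHol a) {s : M → EuclideanSpace ℂ ι} (hs : Reg0 ∞ 0 s)
    (hss : L.Sec s) (hsh : ∀ x i, L.db0 a 0 s x i = 0) (hd : Dense {x | s x ≠ 0})
    {W : Set M} {x : M → ℂ} (hW : IsOpen W) (hx : ∀ p ∈ W, HolAt 0 x p)
    (hle : ∀ p ∈ W, ∃ C : ℝ, ∀ᶠ y in 𝓝 p, ‖x y‖ ≤ C * ‖s y‖) :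
    ∃ q : M → EuclideanSpace ℂ ι, ∀ p ∈ W, At0 ∞ 0 q p ∧ LB.act (L.dual.P p) (q p) = q p ∧
      (∀ i, L.dual.db0 (neg a) 0 q p i = 0) ∧ x p = pair (s p) (q p) ∧
      ∀ C : ℝ, (∀ᶠ y in 𝓝 p, ‖x y‖ ≤ C * ‖s y‖) → ‖q p‖ ≤ C := by
  have hloc : ∀ p : W, ∃ V : Set M, IsOpen V ∧ (p : M) ∈ V ∧ V ⊆ W ∧
      ∃ q : M → EuclideanSpace ℂ ι, ∀ y ∈ V,
      At0 ∞ 0 q y ∧ LB.act (L.dual.P y) (q y) = q y ∧
        (∀ i, L.dual.db0 (neg a) 0 q y i = 0) ∧ x y = pair (s y) (q y) := by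
    rintro ⟨p, hp⟩
    obtain ⟨C, hC⟩ := hle p hp
    exact exists_q_local hol hs hss hsh hd hW hx hp hC
  choose V hVo hpV hVW q hq using hloc
  classical
  set Q : M → EuclideanSpace ℂ ι := fun y => if h : y ∈ W then q ⟨y, h⟩ y else 0 with hQ
  have hQe : ∀ p (hp : p ∈ W), Q =ᶠ[𝓝 p] q ⟨p, hp⟩ := by
    intro p hp
    filter_upwards [(hVo ⟨p, hp⟩).mem_nhds (hpV ⟨p, hp⟩)] with y hy
    have hyW : y ∈ W := hVW _ hy
    rw [hQ]
    simp only [dif_pos hyW]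
    refine dual_eq_of_dense hss hd (hq ⟨y, hyW⟩ y (hpV ⟨y, hyW⟩)).1.continuousAt
      (hq ⟨p, hp⟩ y hy).1.continuousAt ?_
    filter_upwards [(hVo ⟨y, hyW⟩).mem_nhds (hpV ⟨y, hyW⟩), (hVo ⟨p, hp⟩).mem_nhds hy] with z h1 h2
    have e1 := hq ⟨y, hyW⟩ z h1
    have e2 := hq ⟨p, hp⟩ z h2
    exact ⟨e1.2.1, e2.2.1, e1.2.2.2.symm.trans e2.2.2.2⟩
  refine ⟨Q, fun p hp => ?_⟩
  have h1 := hq ⟨p, hp⟩ p (hpV ⟨p, hp⟩)
  have h2 := hQe p hp
  have h3 : At0 ∞ 0 Q p := h1.1.congr h2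
  refine ⟨h3, ?_, ?_, ?_, ?_⟩
  · rw [h2.self_of_nhds]; exact h1.2.1
  · rw [LB.db0_congr h2]; exact h1.2.2.1
  · rw [h2.self_of_nhds]; exact h1.2.2.2
  · intro C hC
    by_contra hcon
    rw [not_le] at hcon
    have h4 : ∀ᶠ y in 𝓝 p, C < ‖Q y‖ := h3.continuousAt.norm.eventually (Ioi_mem_nhds hcon)
    have h5 : ∃ᶠ y in 𝓝 p, s y ≠ 0 := mem_closure_iff_frequently.1 (hd p)
    obtain ⟨y, hy0, hy1, hy2, hy3, hy4⟩ := (h5.and_eventually (h4.and (hC.and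
      (h2.and ((hVo ⟨p, hp⟩).mem_nhds (hpV ⟨p, hp⟩)))))).exists
    have h6 := hq ⟨p, hp⟩ y hy4
    rw [h6.2.2.2, norm_pair_eq (hss y) hy0 h6.2.1, ← hy3, mul_comm] at hy2
    exact absurd (le_of_mul_le_mul_right hy2 (norm_pos_iff.2 hy0)) (not_le.2 hy1)

/-- **(C3)** -/
theorem exists_q {D : XTData M} {i₀ : ι} {R d d' : ℝ} {α : M → EuclideanSpace ℂ ι}
    (H : XtCone D L a i₀ R α d d') {W : Set M} {x : M → ℂ} (hW : IsOpen W)
    (hx : ∀ p ∈ W, HolAt 0 x p) (hle : ∀ p ∈ W, ∃ C : ℝ, ∀ᶠ y in 𝓝 p, ‖x y‖ ≤ C * ‖α y‖) :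
    ∃ q : M → EuclideanSpace ℂ ι, ∀ p ∈ W, At0 ∞ 0 q p ∧ LB.act (L.dual.P p) (q p) = q p ∧
      (∀ i, L.dual.db0 (neg a) 0 q p i = 0) ∧ x p = pair (α p) (q p) ∧
      ∀ C : ℝ, (∀ᶠ y in 𝓝 p, ‖x y‖ ≤ C * ‖α y‖) → ‖q p‖ ≤ C :=
  exists_q_sec H.hol H.α_reg H.α_sec H.α_hol H.α_dense hW hx hle

end Vale.Agent.P267.H701
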