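import Vale.Agent.P267.H739.Geo
import Vale.Agent.P267.H331.FLGlue
import Vale.Agent.P267.H701.Gl

/-! P267 / H701 (helper701), package (C1) of ROUTE S: the chart `κ = (t, x)` near the ring
`r₁ ≤ |t| ≤ r₂` of an embedded projective line. -/

set_option linter.unusedSectionVars false

open scoped Manifold ContDiff Topology
open Set Filter Metric

noncomputable section

namespace Vale.Agent.P267.H701

open Vale.Agent.P267.FL Vale.Agent.P267.H338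

/-- linear algebra -/
theorem inj_of_pair {A₁ A₂ : C2 →L[ℂ] ℂ} {w : C2} (h1 : A₁ w = 1) (h2 : A₂ w = 0) (h3 : A₂ ≠ 0)
    {A : C2 →L[ℂ] C2} (hA : ∀ v, A v = A₁ v • (![1, 0] : C2) + A₂ v • (![0, 1] : C2)) :
    Function.Injective A := by
  have hs : Function.Surjective A.toLinearMap := by
    intro y
    obtain ⟨e, he⟩ : ∃ e, A₂ e ≠ 0 := by
      by_contra hcon
      push Not at hcon
      exact h3 (ContinuousLinearMap.ext hcon)
    refine ⟨(y 0 - (y 1 / A₂ e) * A₁ e) • w + (y 1 / A₂ e) • e, ?_⟩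
    change A _ = y
    rw [hA]
    funext i
    simp only [map_add, map_smul, h1, h2, smul_eq_mul]
    fin_cases i
    · simp
    · simp [he]
  exact LinearMap.injective_iff_surjective.2 hs

variable {M : Type} [TopologicalSpace M] [ChartedSpace C2 M] [IsManifold 𝓘(ℂ, C2) ω M]

/-- a holomorphic left inverse of an immersed disc -/
theorem exists_left_inv {f : ℂ → M} (hf : MDifferentiable 𝓘(ℂ) 𝓘(ℂ, C2) f)
    (hi : Function.Injective (mfderiv 𝓘(ℂ) 𝓘(ℂ, C2) f 0)) :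
    ∃ T : M → ℂ, (∀ᶠ p in 𝓝 (f 0), MDifferentiableAt 𝓘(ℂ, C2) 𝓘(ℂ) T p) ∧
      ∀ᶠ t in 𝓝 (0 : ℂ), T (f t) = t := by
  have : IsManifold 𝓘(ℂ, C2) 1 M := IsManifold.of_le (n := ω) le_top
  set c := chartAt C2 (f 0) with hc
  have hcm : c.MDifferentiable 𝓘(ℂ, C2) 𝓘(ℂ, C2) := mdifferentiable_chart (f 0)
  have h0 : f 0 ∈ c.source := mem_chart_source C2 (f 0)
  have hfc : Continuous f := hf.continuous
  set γ : ℂ → C2 := fun t => c (f t) with hγ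
  have hγd : ∀ᶠ t in 𝓝 (0 : ℂ), DifferentiableAt ℂ γ t := by
    filter_upwards [hfc.continuousAt.eventually (c.open_source.mem_nhds h0)] with t ht
    exact mdifferentiableAt_iff_differentiableAt.1
      (MDifferentiableAt.comp (I' := 𝓘(ℂ, C2)) (g := c) (f := f) t
        (hcm.mdifferentiableAt ht) (hf t))
  have hder : mfderiv 𝓘(ℂ) 𝓘(ℂ, C2) (c ∘ f) 0 =
      (mfderiv 𝓘(ℂ, C2) 𝓘(ℂ, C2) c (f 0)).comp (mfderiv 𝓘(ℂ) 𝓘(ℂ, C2) f 0) :=
    mfderiv_comp 0 (hcm.mdifferentiableAt h0) (hf 0)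
  have hinj : Function.Injective (mfderiv 𝓘(ℂ) 𝓘(ℂ, C2) (c ∘ f) 0) := by
    rw [hder]
    exact (hcm.mfderiv_injective h0).comp hi
  rw [mfderiv_eq_fderiv] at hinj
  have hne : fderiv ℂ γ 0 1 ≠ 0 := by
    intro h
    have h1 : (1 : ℂ) = 0 := hinj (h.trans (map_zero (fderiv ℂ γ 0)).symm)
    exact one_ne_zero h1
  obtain ⟨i, hi⟩ := Function.ne_iff.1 hne
  set g : ℂ → ℂ := fun t => γ t i with hg
  set b : ℂ := fderiv ℂ γ 0 1 i with hb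
  have hb0 : b ≠ 0 := hi
  have hgd : ∀ᶠ t in 𝓝 (0 : ℂ), DifferentiableAt ℂ g t := by
    filter_upwards [hγd] with t ht
    exact differentiableAt_pi.1 ht i
  have hga : AnalyticAt ℂ g 0 := by
    obtain ⟨U, hU, hUo, h0U⟩ := _root_.mem_nhds_iff.1 hgd
    exact DifferentiableOn.analyticAt (fun t ht => (hU ht).differentiableWithinAt)
      (hUo.mem_nhds h0U)
  have hcd : ContDiffAt ℂ 1 g 0 := hga.contDiffAt
  set f' : ℂ ≃L[ℂ] ℂ := ContinuousLinearEquiv.unitsEquivAut ℂ (Units.mk0 b hb0) with hf'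
  have hfd : HasFDerivAt g (f' : ℂ →L[ℂ] ℂ) 0 := by
    have h1 : HasFDerivAt γ (fderiv ℂ γ 0) 0 := hγd.self_of_nhds.hasFDerivAt
    have h2 := (hasFDerivAt_pi'.1 h1) i
    have h3 : (f' : ℂ →L[ℂ] ℂ) = (ContinuousLinearMap.proj i).comp (fderiv ℂ γ 0) := by
      apply ContinuousLinearMap.ext_ring
      change (1 : ℂ) * b = b
      rw [one_mul]
    rw [h3]
    exact h2
  have hn : (1 : WithTop ℕ∞) ≠ 0 := one_ne_zero
  have hs : HasStrictFDerivAt g (f' : ℂ →L[ℂ] ℂ) 0 := hcd.hasStrictFDerivAt' hfd hn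
  have hl := hs.eventually_left_inverse
  have hinvd : ContDiffAt ℂ 1 (hcd.localInverse hfd hn) (g 0) := hcd.to_localInverse hfd hn
  have hinvd' : ∀ᶠ y in 𝓝 (g 0), DifferentiableAt ℂ (hcd.localInverse hfd hn) y := by
    filter_upwards [hinvd.eventually (by simp)] with y hy
    exact hy.differentiableAt (by simp)
  refine ⟨fun p => hcd.localInverse hfd hn (c p i), ?_, ?_⟩
  · have hci : ∀ p ∈ c.source, MDifferentiableAt 𝓘(ℂ, C2) 𝓘(ℂ) (fun p => c p i) p := by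
      intro p hp
      have hpr : MDifferentiableAt 𝓘(ℂ, C2) 𝓘(ℂ) (fun y : C2 => y i) (c p) := by
        rw [mdifferentiableAt_iff_differentiableAt]
        exact differentiableAt_apply i _
      exact MDifferentiableAt.comp (I' := 𝓘(ℂ, C2)) (g := fun y : C2 => y i) (f := c) p hpr
        (hcm.mdifferentiableAt hp)
    have hcont : ContinuousAt (fun p => c p i) (f 0) := (hci _ h0).continuousAt
    filter_upwards [c.open_source.mem_nhds h0, hcont.eventually hinvd'] with p hp hp2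
    exact MDifferentiableAt.comp (I' := 𝓘(ℂ)) (g := hcd.localInverse hfd hn)
      (f := fun p => c p i) p (mdifferentiableAt_iff_differentiableAt.2 hp2) (hci p hp)
  · filter_upwards [hl] with t ht
    exact ht

theorem mdiff_pair {x T : M → ℂ} {q : M} (hx : MDifferentiableAt 𝓘(ℂ, C2) 𝓘(ℂ) x q)
    (hT : MDifferentiableAt 𝓘(ℂ, C2) 𝓘(ℂ) T q) :
    HasMFDerivAt 𝓘(ℂ, C2) 𝓘(ℂ, C2) (fun p => (![T p, x p] : C2)) q
      (((ContinuousLinearMap.toSpanSingleton ℂ (![1, 0] : C2)).comp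
        (mfderiv 𝓘(ℂ, C2) 𝓘(ℂ) T q : C2 →L[ℂ] ℂ)) +
      ((ContinuousLinearMap.toSpanSingleton ℂ (![0, 1] : C2)).comp
        (mfderiv 𝓘(ℂ, C2) 𝓘(ℂ) x q : C2 →L[ℂ] ℂ))) := by
  have h1 : HasMFDerivAt 𝓘(ℂ, C2) 𝓘(ℂ, C2)
      (fun p => ContinuousLinearMap.toSpanSingleton ℂ (![1, 0] : C2) (T p)) q
      ((ContinuousLinearMap.toSpanSingleton ℂ (![1, 0] : C2)).comp
        (mfderiv 𝓘(ℂ, C2) 𝓘(ℂ) T q : C2 →L[ℂ] ℂ)) :=
    HasMFDerivAt.comp (I' := 𝓘(ℂ)) q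
      (ContinuousLinearMap.hasMFDerivAt (ContinuousLinearMap.toSpanSingleton ℂ (![1, 0] : C2)))
      hT.hasMFDerivAt
  have h2 : HasMFDerivAt 𝓘(ℂ, C2) 𝓘(ℂ, C2)
      (fun p => ContinuousLinearMap.toSpanSingleton ℂ (![0, 1] : C2) (x p)) q
      ((ContinuousLinearMap.toSpanSingleton ℂ (![0, 1] : C2)).comp
        (mfderiv 𝓘(ℂ, C2) 𝓘(ℂ) x q : C2 →L[ℂ] ℂ)) :=
    HasMFDerivAt.comp (I' := 𝓘(ℂ)) q
      (ContinuousLinearMap.hasMFDerivAt (ContinuousLinearMap.toSpanSingleton ℂ (![0, 1] : C2)))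
      hx.hasMFDerivAt
  have h3 := h1.add h2
  refine h3.congr_of_eventuallyEq (Eventually.of_forall fun p => ?_)
  funext i
  fin_cases i <;> simp

/-- the map `(T, x)` is immersive along a disc on which `x = 0`, `T = t` -/
theorem imm_pair {f : ℂ → M} {x T : M → ℂ} {t : ℂ} (hf : MDifferentiableAt 𝓘(ℂ) 𝓘(ℂ, C2) f t)
    (hx : MDifferentiableAt 𝓘(ℂ, C2) 𝓘(ℂ) x (f t))
    (hT : MDifferentiableAt 𝓘(ℂ, C2) 𝓘(ℂ) T (f t))
    (h : ∀ᶠ s in 𝓝 t, x (f s) = 0 ∧ T (f s) = s)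
    (hdx : mfderiv 𝓘(ℂ, C2) 𝓘(ℂ) x (f t) ≠ 0) : Imm (fun p => (![T p, x p] : C2)) (f t) := by
  have h1 : (mfderiv 𝓘(ℂ, C2) 𝓘(ℂ) T (f t)) (mfderiv 𝓘(ℂ) 𝓘(ℂ, C2) f t (1 : ℂ)) = (1 : ℂ) := by
    have h2 : mfderiv 𝓘(ℂ) 𝓘(ℂ) (T ∘ f) t =
        (mfderiv 𝓘(ℂ, C2) 𝓘(ℂ) T (f t)).comp (mfderiv 𝓘(ℂ) 𝓘(ℂ, C2) f t) :=
      mfderiv_comp t hT hf
    have h3 : (T ∘ f) =ᶠ[𝓝 t] id := by
      filter_upwards [h] with s hs using hs.2
    rw [h3.mfderiv_eq, mfderiv_id] at h2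
    exact (DFunLike.congr_fun h2 (1 : ℂ)).symm
  have h2 : (mfderiv 𝓘(ℂ, C2) 𝓘(ℂ) x (f t)) (mfderiv 𝓘(ℂ) 𝓘(ℂ, C2) f t (1 : ℂ)) = (0 : ℂ) := by
    have h2 : mfderiv 𝓘(ℂ) 𝓘(ℂ) (x ∘ f) t =
        (mfderiv 𝓘(ℂ, C2) 𝓘(ℂ) x (f t)).comp (mfderiv 𝓘(ℂ) 𝓘(ℂ, C2) f t) :=
      mfderiv_comp t hx hf
    have h3 : (x ∘ f) =ᶠ[𝓝 t] fun _ => (0 : ℂ) := by
      filter_upwards [h] with s hs using hs.1
    rw [h3.mfderiv_eq, mfderiv_const] at h2
    exact (DFunLike.congr_fun h2 (1 : ℂ)).symm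
  unfold Imm
  rw [(mdiff_pair hx hT).mfderiv]
  exact inj_of_pair (A₁ := mfderiv 𝓘(ℂ, C2) 𝓘(ℂ) T (f t))
    (A₂ := mfderiv 𝓘(ℂ, C2) 𝓘(ℂ) x (f t)) (w := mfderiv 𝓘(ℂ) 𝓘(ℂ, C2) f t (1 : ℂ)) h1 h2 hdx
    (fun v => rfl)

/-- **(C1)** the chart near the ring -/
theorem ringThm : Vale.Agent.P267.H739.RingThm M := by
  intro φ W x hW hx h0W hx0 hdx
  have : IsManifold 𝓘(ℂ, C2) 1 M := IsManifold.of_le (n := ω) le_top
  have : Nonempty M := ⟨φ.f₀ 0⟩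
  have hxm : ∀ p ∈ W, MDifferentiableAt 𝓘(ℂ, C2) 𝓘(ℂ) x p := fun p hp =>
    Vale.Agent.P267.H331.HolAt.mdiff (hx p hp)
  have hfc : Continuous φ.f₀ := φ.holo₀.continuous
  obtain ⟨T, hT, hTf⟩ := exists_left_inv φ.holo₀ (φ.imm₀ 0)
  obtain ⟨W₁, hW₁s, hW₁o, h0W₁⟩ := _root_.mem_nhds_iff.1 hT
  have hev : ∀ᶠ t in 𝓝 (0 : ℂ), φ.f₀ t ∈ W ∩ W₁ ∧ T (φ.f₀ t) = t :=
    (hfc.continuousAt.eventually ((hW.inter hW₁o).mem_nhds ⟨h0W, h0W₁⟩)).and hTf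
  obtain ⟨ρ₀, hρ₀, hρ⟩ := Metric.eventually_nhds_iff_ball.1 hev
  have hρ' : ∀ t : ℂ, ‖t‖ < ρ₀ → φ.f₀ t ∈ W ∧ φ.f₀ t ∈ W₁ ∧ T (φ.f₀ t) = t := by
    intro t ht
    have := hρ t (by simpa using ht)
    exact ⟨this.1.1, this.1.2, this.2⟩
  refine ⟨ρ₀ / 2, by positivity, fun r₁ r₂ hr₁ hr₁₂ hr₂ => ?_⟩
  have hlt : r₂ < ρ₀ := by linarith
  refine ⟨fun t ht => (hρ' t (lt_of_le_of_lt ht hlt)).1, ?_⟩
  set A : Set ℂ := {t | r₁ ≤ ‖t‖ ∧ ‖t‖ ≤ r₂} with hA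
  have hAc : IsCompact A := by
    have h1 : A = closedBall 0 r₂ ∩ {t | r₁ ≤ ‖t‖} := by
      ext t
      simp only [hA, mem_inter_iff, mem_closedBall, dist_zero_right, mem_ofPred_eq]
      exact and_comm
    rw [h1]
    exact (isCompact_closedBall _ _).inter_right (isClosed_le continuous_const continuous_norm)
  set K : Set M := φ.f₀ '' A with hK
  have hKc : IsCompact K := hAc.image hfc
  have hval : ∀ t ∈ A, (![T (φ.f₀ t), x (φ.f₀ t)] : C2) = ![t, 0] := by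
    intro t ht
    have h1 := hρ' t (lt_of_le_of_lt ht.2 hlt)
    rw [h1.2.2, hx0 _ h1.1 (φ.mem_image_f₀ t)]
  have hinj : InjOn (fun p => (![T p, x p] : C2)) K := by
    rintro _ ⟨s, hs, rfl⟩ _ ⟨t, ht, rfl⟩ hst
    have h1 : (![s, 0] : C2) = ![t, 0] := by
      rw [← hval s hs, ← hval t ht]
      exact hst
    have h2 := congrFun h1 0
    simp at h2
    rw [h2]
  obtain ⟨κ, hKκ, hκU, hκv, hκm⟩ := exists_chart_nhds (Φ := fun p => (![T p, x p] : C2))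
    (U := W ∩ W₁) hKc (hW.inter hW₁o) (by
      rintro _ ⟨t, ht, rfl⟩
      have h1 := hρ' t (lt_of_le_of_lt ht.2 hlt)
      exact ⟨h1.1, h1.2.1⟩)
    (fun p hp => (mdiff_pair (hxm p hp.1) (hW₁s hp.2)).mdifferentiableAt) (by
      rintro _ ⟨t, ht, rfl⟩
      have h1 := hρ' t (lt_of_le_of_lt ht.2 hlt)
      refine imm_pair (φ.holo₀ t) (hxm _ h1.1) (hW₁s h1.2.1) ?_ ?_
      · filter_upwards [(isOpen_lt continuous_norm continuous_const).mem_nhds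
          (show ‖t‖ < ρ₀ from lt_of_le_of_lt ht.2 hlt)] with s hs
        have h2 := hρ' s hs
        exact ⟨hx0 _ h2.1 (φ.mem_image_f₀ s), h2.2.2⟩
      · refine hdx _ h1.1 (φ.mem_image_f₀ t) fun h2 => ?_
        have h3 := φ.inj h2
        have h4 := ht.1
        rw [h3, norm_zero] at h4
        linarith) hinj
  -- the tube
  set K' : Set C2 := (fun t : ℂ => (![t, 0] : C2)) '' A with hK'
  have hcont : Continuous fun t : ℂ => (![t, 0] : C2) := by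
    refine continuous_pi fun i => ?_
    fin_cases i
    · exact continuous_id
    · exact continuous_const
  have hK't : K' ⊆ κ.target := by
    rintro _ ⟨t, ht, rfl⟩
    have h1 := κ.map_source (hKκ ⟨t, ht, rfl⟩)
    rw [hκv _ (hKκ ⟨t, ht, rfl⟩)] at h1
    rwa [hval t ht] at h1
  obtain ⟨e, he, hes⟩ := (hAc.image hcont).exists_cthickening_subset_open κ.open_target hK't
  refine ⟨e, κ, he, mem_maximalAtlas_of_mdiff hκm, fun p hp => (hκU hp).1, ?_, ?_, ?_⟩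
  · rintro z ⟨hz1, hz2, hz3⟩
    refine hes (mem_cthickening_of_dist_le z (![z 0, 0] : C2) e _ ⟨z 0, ⟨hz1, hz2⟩, rfl⟩ ?_)
    rw [dist_pi_le_iff he.le]
    intro i
    fin_cases i
    · simpa using he.le
    · simpa using hz3
  · intro p hp
    rw [hκv p hp]
    rfl
  · intro t ht1 ht2
    have h1 : φ.f₀ t ∈ κ.source := hKκ ⟨t, ⟨ht1, ht2⟩, rfl⟩
    refine ⟨h1, ?_⟩
    rw [hκv _ h1]
    exact hval t ⟨ht1, ht2⟩

end Vale.Agent.P267.H701
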